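import Crest.Agent.T3.KfLemmas

/-! Row 214, verified checker, part 1 (helper25): rational lower bounds of `Kf`, node values,
upper bound of the Legendre transform of the profile. All quantities are natural numbers:
`x, h, m, λ, η` in `1e-4`, `G, K, A, r, t` in `1e-6`, `E, F` in `1e-8`. -/

set_option autoImplicit false
open MeasureTheory Set Filter Topology

namespace Crest.Agent.T3

/-! ### Taylor bound of the sine -/

theorem nt_mono (p p' : ℝ → ℝ) (h : ∀ x, HasDerivAt p (p' x) x) (h' : ∀ x, 0 ≤ x → 0 ≤ p' x)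
    (h0 : 0 ≤ p 0) (x : ℝ) (hx : 0 ≤ x) : 0 ≤ p x := by
  have hm : MonotoneOn p (Ici 0) := by
    refine monotoneOn_of_deriv_nonneg (convex_Ici 0) ?_ ?_ ?_
    · exact fun y _ => (h y).continuousAt.continuousWithinAt
    · exact fun y _ => (h y).differentiableAt.differentiableWithinAt
    · intro y hy
      rw [interior_Ici] at hy
      rw [(h y).deriv]
      exact h' y (le_of_lt hy)
  exact h0.trans (hm (mem_Ici.2 le_rfl) (mem_Ici.2 hx) hx)

theorem nt_c0 (x : ℝ) : 0 ≤ 1 - Real.cos x := by linarith [Real.cos_le_one x]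

theorem nt_s1 (x : ℝ) (hx : 0 ≤ x) : 0 ≤ x - Real.sin x :=
  nt_mono (fun x => x - Real.sin x) (fun x => 1 - Real.cos x)
    (fun x => (hasDerivAt_id x).sub (Real.hasDerivAt_sin x)) (fun x _ => nt_c0 x) (by simp) x hx

theorem nt_c2 (x : ℝ) (hx : 0 ≤ x) : 0 ≤ Real.cos x - (1 - x ^ 2 / 2) := by
  refine nt_mono (fun x => Real.cos x - (1 - x ^ 2 / 2)) (fun x => x - Real.sin x) ?_
    nt_s1 (by simp) x hx
  intro x
  have := (Real.hasDerivAt_cos x).sub ((hasDerivAt_const x (1 : ℝ)).sub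
    (((hasDerivAt_id x).pow 2).div_const 2))
  refine HasDerivAt.congr_deriv (f := fun x => Real.cos x - (1 - x ^ 2 / 2)) this ?_
  simp; ring

theorem nt_s3 (x : ℝ) (hx : 0 ≤ x) : 0 ≤ Real.sin x - (x - x ^ 3 / 6) := by
  refine nt_mono (fun x => Real.sin x - (x - x ^ 3 / 6)) (fun x => Real.cos x - (1 - x ^ 2 / 2)) ?_
    nt_c2 (by simp) x hx
  intro x
  have := (Real.hasDerivAt_sin x).sub ((hasDerivAt_id x).sub
    (((hasDerivAt_id x).pow 3).div_const 6))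
  refine HasDerivAt.congr_deriv (f := fun x => Real.sin x - (x - x ^ 3 / 6)) this ?_
  simp; ring

theorem nt_c4 (x : ℝ) (hx : 0 ≤ x) : 0 ≤ (1 - x ^ 2 / 2 + x ^ 4 / 24) - Real.cos x := by
  refine nt_mono (fun x => (1 - x ^ 2 / 2 + x ^ 4 / 24) - Real.cos x)
    (fun x => Real.sin x - (x - x ^ 3 / 6)) ?_ nt_s3 (by simp) x hx
  intro x
  have := (((hasDerivAt_const x (1 : ℝ)).sub (((hasDerivAt_id x).pow 2).div_const 2)).add
    (((hasDerivAt_id x).pow 4).div_const 24)).sub (Real.hasDerivAt_cos x)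
  refine HasDerivAt.congr_deriv (f := fun x => (1 - x ^ 2 / 2 + x ^ 4 / 24) - Real.cos x) this ?_
  simp; ring

theorem nt_s5 (x : ℝ) (hx : 0 ≤ x) : 0 ≤ (x - x ^ 3 / 6 + x ^ 5 / 120) - Real.sin x := by
  refine nt_mono (fun x => (x - x ^ 3 / 6 + x ^ 5 / 120) - Real.sin x)
    (fun x => (1 - x ^ 2 / 2 + x ^ 4 / 24) - Real.cos x) ?_ nt_c4 (by simp) x hx
  intro x
  have := (((hasDerivAt_id x).sub (((hasDerivAt_id x).pow 3).div_const 6)).add
    (((hasDerivAt_id x).pow 5).div_const 120)).sub (Real.hasDerivAt_sin x)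
  refine HasDerivAt.congr_deriv (f := fun x => (x - x ^ 3 / 6 + x ^ 5 / 120) - Real.sin x) this ?_
  simp; ring

theorem nt_c6 (x : ℝ) (hx : 0 ≤ x) :
    0 ≤ Real.cos x - (1 - x ^ 2 / 2 + x ^ 4 / 24 - x ^ 6 / 720) := by
  refine nt_mono (fun x => Real.cos x - (1 - x ^ 2 / 2 + x ^ 4 / 24 - x ^ 6 / 720))
    (fun x => (x - x ^ 3 / 6 + x ^ 5 / 120) - Real.sin x) ?_ nt_s5 (by simp) x hx
  intro x
  have := (Real.hasDerivAt_cos x).sub ((((hasDerivAt_const x (1 : ℝ)).sub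
    (((hasDerivAt_id x).pow 2).div_const 2)).add (((hasDerivAt_id x).pow 4).div_const 24)).sub
    (((hasDerivAt_id x).pow 6).div_const 720))
  refine HasDerivAt.congr_deriv (f := fun x => Real.cos x - (1 - x ^ 2 / 2 + x ^ 4 / 24 - x ^ 6 / 720)) this ?_
  simp; ring

theorem nt_s7 (x : ℝ) (hx : 0 ≤ x) :
    0 ≤ Real.sin x - (x - x ^ 3 / 6 + x ^ 5 / 120 - x ^ 7 / 5040) := by
  refine nt_mono (fun x => Real.sin x - (x - x ^ 3 / 6 + x ^ 5 / 120 - x ^ 7 / 5040))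
    (fun x => Real.cos x - (1 - x ^ 2 / 2 + x ^ 4 / 24 - x ^ 6 / 720)) ?_ nt_c6 (by simp) x hx
  intro x
  have := (Real.hasDerivAt_sin x).sub ((((hasDerivAt_id x).sub
    (((hasDerivAt_id x).pow 3).div_const 6)).add (((hasDerivAt_id x).pow 5).div_const 120)).sub
    (((hasDerivAt_id x).pow 7).div_const 5040))
  refine HasDerivAt.congr_deriv (f := fun x => Real.sin x - (x - x ^ 3 / 6 + x ^ 5 / 120 - x ^ 7 / 5040)) this ?_
  simp; ring

theorem nt_c8 (x : ℝ) (hx : 0 ≤ x) :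
    0 ≤ (1 - x ^ 2 / 2 + x ^ 4 / 24 - x ^ 6 / 720 + x ^ 8 / 40320) - Real.cos x := by
  refine nt_mono (fun x => (1 - x ^ 2 / 2 + x ^ 4 / 24 - x ^ 6 / 720 + x ^ 8 / 40320) - Real.cos x)
    (fun x => Real.sin x - (x - x ^ 3 / 6 + x ^ 5 / 120 - x ^ 7 / 5040)) ?_ nt_s7 (by simp) x hx
  intro x
  have := (((((hasDerivAt_const x (1 : ℝ)).sub
    (((hasDerivAt_id x).pow 2).div_const 2)).add (((hasDerivAt_id x).pow 4).div_const 24)).sub
    (((hasDerivAt_id x).pow 6).div_const 720)).add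
    (((hasDerivAt_id x).pow 8).div_const 40320)).sub (Real.hasDerivAt_cos x)
  refine HasDerivAt.congr_deriv (f := fun x => (1 - x ^ 2 / 2 + x ^ 4 / 24 - x ^ 6 / 720 + x ^ 8 / 40320) - Real.cos x) this ?_
  simp; ring

theorem nt_s9 (x : ℝ) (hx : 0 ≤ x) :
    Real.sin x ≤ x - x ^ 3 / 6 + x ^ 5 / 120 - x ^ 7 / 5040 + x ^ 9 / 362880 := by
  have := nt_mono
    (fun x => (x - x ^ 3 / 6 + x ^ 5 / 120 - x ^ 7 / 5040 + x ^ 9 / 362880) - Real.sin x)
    (fun x => (1 - x ^ 2 / 2 + x ^ 4 / 24 - x ^ 6 / 720 + x ^ 8 / 40320) - Real.cos x) ?_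
    nt_c8 (by simp) x hx
  · linarith
  intro x
  have := (((((hasDerivAt_id x).sub
    (((hasDerivAt_id x).pow 3).div_const 6)).add (((hasDerivAt_id x).pow 5).div_const 120)).sub
    (((hasDerivAt_id x).pow 7).div_const 5040)).add
    (((hasDerivAt_id x).pow 9).div_const 362880)).sub (Real.hasDerivAt_sin x)
  refine HasDerivAt.congr_deriv (f := fun x => (x - x ^ 3 / 6 + x ^ 5 / 120 - x ^ 7 / 5040 + x ^ 9 / 362880) - Real.sin x) this ?_
  simp; ring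

/-! ### Lower bounds of `Kf` -/

/-- Certificate of `K/10^6 ≤ Kf (m/10^4) (k/20)`: `t/10^6 ≤ arcsin (l m)`, `r/10^6 ≤ sqrt(1-l²m²)`. -/
def kfOK (m k t r K : ℕ) : Bool :=
  Nat.ble 1 k && Nat.ble k 20 && Nat.ble m 10000 && Nat.ble t 1570796 &&
  Nat.ble (362880 * 10 ^ 48 * t + 3024 * 10 ^ 24 * t ^ 5 + t ^ 9)
    (60480 * 10 ^ 36 * t ^ 3 + 72 * 10 ^ 12 * t ^ 7 + 1814400 * 10 ^ 48 * k * m) &&
  Nat.ble (r * r + 25 * k * k * m * m) (10 ^ 12) &&
  Nat.ble (20000 * k * K) (k * m * r + 200000 * t)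

theorem kfOK_sound {m k t r K : ℕ} (h : kfOK m k t r K = true) :
    (K : ℝ) / 10 ^ 6 ≤ Kf ((m : ℝ) / 10 ^ 4) ((k : ℝ) / 20) := by
  simp only [kfOK, Bool.and_eq_true, Nat.ble_eq] at h
  obtain ⟨⟨⟨⟨⟨⟨hk1, hk2⟩, hm⟩, ht⟩, hs⟩, hr⟩, hK⟩ := h
  have hk1' : (1 : ℝ) ≤ k := by exact_mod_cast hk1
  have hk2' : (k : ℝ) ≤ 20 := by exact_mod_cast hk2
  have hm' : (m : ℝ) ≤ 10000 := by exact_mod_cast hm
  have hm0 : (0 : ℝ) ≤ m := Nat.cast_nonneg m
  have ht0 : (0 : ℝ) ≤ t := Nat.cast_nonneg t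
  have ht' : (t : ℝ) ≤ 1570796 := by exact_mod_cast ht
  have hs' : (362880 * 10 ^ 48 * t + 3024 * 10 ^ 24 * t ^ 5 + t ^ 9 : ℝ) ≤
      60480 * 10 ^ 36 * t ^ 3 + 72 * 10 ^ 12 * t ^ 7 + 1814400 * 10 ^ 48 * k * m := by
    exact_mod_cast hs
  have hr' : (r * r + 25 * k * k * m * m : ℝ) ≤ 10 ^ 12 := by exact_mod_cast hr
  have hK' : (20000 * k * K : ℝ) ≤ k * m * r + 200000 * t := by exact_mod_cast hK
  have hr0 : (0 : ℝ) ≤ r := Nat.cast_nonneg r
  set l : ℝ := (k : ℝ) / 20 with hl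
  set M : ℝ := (m : ℝ) / 10 ^ 4 with hM
  have hl0 : 0 < l := by rw [hl]; positivity
  have hM0 : 0 ≤ M := by rw [hM]; positivity
  have hlM : l * M = k * m / 200000 := by rw [hl, hM]; ring
  have hlM1 : l * M ≤ 1 := by
    rw [hlM, div_le_one (by norm_num)]
    nlinarith
  rw [Kf_closed M l hM0 hl0 hlM1]
  -- arcsin
  have h1 : (t : ℝ) / 10 ^ 6 ≤ Real.arcsin (l * M) := by
    rw [Real.le_arcsin_iff_sin_le]
    · refine (nt_s9 _ (by positivity)).trans ?_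
      rw [hlM]
      have e : (362880 * 10 ^ 54 : ℝ) * ((t : ℝ) / 10 ^ 6 - ((t : ℝ) / 10 ^ 6) ^ 3 / 6 +
          ((t : ℝ) / 10 ^ 6) ^ 5 / 120 - ((t : ℝ) / 10 ^ 6) ^ 7 / 5040 +
          ((t : ℝ) / 10 ^ 6) ^ 9 / 362880) =
          362880 * 10 ^ 48 * t + 3024 * 10 ^ 24 * t ^ 5 + t ^ 9 -
          (60480 * 10 ^ 36 * t ^ 3 + 72 * 10 ^ 12 * t ^ 7) := by
        ring
      have e2 : (362880 * 10 ^ 54 : ℝ) * (k * m / 200000) = 1814400 * 10 ^ 48 * k * m := by ring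
      have hc : (0 : ℝ) < 362880 * 10 ^ 54 := by norm_num
      rw [← mul_le_mul_iff_right₀ hc, e, e2]
      linarith
    · constructor
      · have := Real.pi_pos
        have h0 : 0 ≤ (t : ℝ) / 10 ^ 6 := by positivity
        linarith
      · have := Real.pi_gt_d6
        rw [div_le_iff₀ (by norm_num)]
        nlinarith
    · constructor
      · have : 0 ≤ l * M := by positivity
        linarith
      · exact hlM1
  -- square root
  have h2 : (r : ℝ) / 10 ^ 6 ≤ Real.sqrt (1 - l ^ 2 * M ^ 2) := by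
    apply Real.le_sqrt_of_sq_le
    have e : l ^ 2 * M ^ 2 = (k * m / 200000) ^ 2 := by rw [← hlM]; ring
    rw [e]
    have e3 : (1 - (k * m / 200000 : ℝ) ^ 2) - ((r : ℝ) / 10 ^ 6) ^ 2 =
        (10 ^ 12 - (r * r + 25 * k * k * m * m)) / 10 ^ 12 := by ring
    have : 0 ≤ (1 - (k * m / 200000 : ℝ) ^ 2) - ((r : ℝ) / 10 ^ 6) ^ 2 := by
      rw [e3]; apply div_nonneg <;> linarith
    linarith
  have h3 : (t : ℝ) / 10 ^ 6 / l ≤ Real.arcsin (l * M) / l := by gcongr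
  have h4 : M * ((r : ℝ) / 10 ^ 6) ≤ M * Real.sqrt (1 - l ^ 2 * M ^ 2) := by gcongr
  have h5 : (K : ℝ) / 10 ^ 6 ≤ (M * ((r : ℝ) / 10 ^ 6) + (t : ℝ) / 10 ^ 6 / l) / 2 := by
    have e4 : (M * ((r : ℝ) / 10 ^ 6) + (t : ℝ) / 10 ^ 6 / l) / 2 =
        (k * m * r + 200000 * t) / (20000 * k * 10 ^ 6) := by
      rw [hl, hM]; field_simp; ring
    rw [e4, div_le_div_iff₀ (by norm_num) (by positivity)]
    nlinarith
  linarith

end Crest.Agent.T3
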