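import Crest.Agent.T3.Pl

/-! Row 214: kernel-evaluated checker for region R3 (case I) and R2 (case II): definitions. -/

set_option autoImplicit false

namespace Crest.Agent.T3.Pl

/-- lower bounds of `10^6 * Kf 1 (m/20)`, `m = 0, …, 20` -/
def Ktab : List ℕ :=
  [1000000, 999578, 998325, 996232, 993287, 989478, 984785, 979185, 972648, 965137, 956606, 946999, 936245, 924257, 910921, 896088, 879554, 861024, 840034, 815717, 785393]

/-- lower bounds of `10^6 * Kf (9/10) (m/20)` -/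
def Ktab9 : List ℕ :=
  [900000, 899691, 898778, 897253, 895111, 892342, 888937, 884881, 880158, 874747, 868623, 861755, 854108, 845636, 836286, 825989, 814659, 802185, 788417, 773141, 756030]

def kt9 (m : ℕ) : ℕ := Ktab9.getD m 0

def kt (m : ℕ) : ℕ := Ktab.getD m 0

/-- branch data of a cell: `m1` (slope `l1 = m1/20`) -/
def cellOK3 (h : ℕ) (d0 d1 : Nd) (m1 : ℕ) : Bool :=
  Nat.ble m1 20 && Nat.ble d1.x 10000 &&
  Nat.ble (d0.g * d0.g) (314159265 * d0.x) && Nat.ble (d1.g * d1.g) (314159265 * d1.x) &&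
  Nat.ble (d0.g + 5 * m1 * h) (5 * m1 * d0.x + kt m1) &&
  Nat.ble (d1.g + 5 * m1 * h) (5 * m1 * d1.x + kt m1) &&
  Nat.ble (d0.g * d0.g) (314159265 * (10000 - d0.x)) &&
  Nat.ble (d1.g * d1.g) (314159265 * (10000 - d1.x)) && Nat.ble 1 d1.g

def tabOK3 (h : ℕ) : Nd → List (Nd × ℕ) → Bool
  | _, [] => true
  | d0, (d1, m1) :: l => cellOK3 h d0 d1 m1 && tabOK3 h d1 l

/-- upper bound of `10^10 * (sup_V f(V) - lam V)`, `lam` in `1e-4` -/
def F10 (lam : ℕ) : ℕ :=
  if Nat.ble lam 15707 then 10000000000 - lam * 318309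
  else if Nat.ble lam 22500 then 78539817000000 / lam + 1
  else if Nat.ble lam 30000 then 6981317009 - lam * 155140
  else 2094395102400000000 / (lam * lam) + 1

/-- lower bound of `10^8 * Kf (1/10) eta`, `eta` in `1e-4` -/
def S8 (eta : ℕ) : ℕ :=
  if Nat.ble eta 65000 then
    10000000 - (eta * eta / 6000 + 1) - (eta * eta * (eta * eta) / 300000000000000 + 1)
  else 10000000 - (eta * eta / 6000 + 1) - (eta * eta * (eta * eta) / 100000000000000 + 1)

/-- the node `x` is in the linear branch of `gA (h-)` -/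
def okA (hm x : ℕ) : Bool :=
  Nat.ble (314159266 * ((10000 - hm) * (10000 - hm))) ((10000 - x) * 4000000000000)

/-- lower bound of `10^6 * gA (h-) x` at a node (linear branch if `okA`, square root branch otherwise) -/
def wA (hm x : ℕ) : ℕ :=
  if okA hm x then (10000 - hm) * 314159265 / 4000000 + (10000 - x) * 1000000 / (10000 - hm)
  else isq ((10000 - x) * 314159265) 1000000

def c6 (hm : ℕ) : ℕ := 886226 * (10000 - hm) / 10000

/-- `(eta - lam) * (rho + r) >= sqrt pi` -/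
def okEta (hm xp lam eta : ℕ) : Bool :=
  let rho := min (isq ((10000 - xp) * 100000000) 1000000) (c6 hm)
  let r := min 424264 (c6 hm)
  Nat.ble 17724538510 ((eta - lam) * (rho + r))

/-- one box: `c3` = number of sigma cells, line data, `eta` -/
structure Par where
  (c3 Ep En lam eta : ℕ)

/-- final inequalities. `x0, x1` = ends of the sigma cell, `J` (1e-10) integral, `bm` (1e-6) minimum of `b` -/
def fin3 (hm x0 x1 J bm : ℕ) (q : Par) : Bool :=
  let S := S8 q.eta
  let F := F10 q.lam + 90 * q.En + 1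
  Nat.ble (F + 10 * q.lam * x0) (wA hm x0 * S / 10000 + 90 * q.Ep + J) &&
  Nat.ble (F + 10 * q.lam * x1) (wA hm x1 * S / 10000 + 90 * q.Ep + J + (x1 - x0) * bm) &&
  okEta hm x1 q.lam q.eta && Nat.ble q.eta 99999 && Nat.ble x1 8200

/-- region `s1 ≥ 2/5`, `sigma ≥ 7/10` is not treated here -/
def skip (j : ℕ) (nds : List Nd) : Bool :=
  Nat.ble 4000 (nds.getD 0 ⟨0, 0, 0⟩).x && Nat.ble 7000 (nds.getD j ⟨0, 0, 0⟩).x

/-- `nds` = nodes from `s1-` on; `c1` cells up to `s1+`, `j` = number of cells from `s1-` to `sigma-`,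
`q.c3` = number of cells from `sigma-` to `sigma+`. If `j < c1` the integral of `b` is not used. -/
def box3 (hm c1 j : ℕ) (nds : List Nd) (q : Par) : Bool :=
  match nds with
  | d0 :: d1 :: l =>
    let L : Ln := ⟨q.Ep, q.En, q.lam, 0⟩
    let rest := d1 :: l
    let st0 := start L d0 d1
    if Nat.ble c1 j then
      let st1 := run L st0 (rest.take c1)
      let st2 := run L st1 ((rest.drop c1).take (j - c1))
      let r := runM L st2 st2.pb ((rest.drop j).take q.c3)
      r.1.ok && fin3 hm st2.px r.1.px ((st2.T - st1.T) / 2) r.2 q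
    else
      let st2 := run L st0 (rest.take j)
      let st3 := run L st2 ((rest.drop j).take q.c3)
      st3.ok && fin3 hm st2.px st3.px 0 0 q
  | _ => false

/-- a row: `s1` in the first `c1` cells of `nds`, sigma cells `j, j+1, …` -/
def row3 (hm c1 : ℕ) (nds : List Nd) : ℕ → List Par → Bool
  | _, [] => true
  | j, q :: qs => (skip j nds || box3 hm c1 j nds q) && row3 hm c1 nds (j + q.c3) qs

/-- total number of sigma cells of a row -/
def lenPs : List Par → ℕ
  | [] => 0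
  | q :: qs => q.c3 + lenPs qs

structure Row where
  (c1 j0 : ℕ)
  (ps : List Par)

/-- rows: `nds` = nodes from the current `s1-` on -/
def rows3 (hm : ℕ) : List Nd → List Row → Bool
  | nds, [] => Nat.ble 5000 (nds.headD ⟨0, 0, 0⟩).x
  | nds, r :: rs =>
    row3 hm r.c1 nds r.j0 r.ps &&
    (Nat.beq r.j0 0 || Nat.ble ((nds.getD r.j0 ⟨10001, 0, 0⟩).x) hm) &&
    Nat.ble 8200 ((nds.getD (r.j0 + lenPs r.ps) ⟨0, 0, 0⟩).x) &&
    rows3 hm (nds.drop r.c1) rs

/-- all data of an `h` cell `[hm, hp]`; `d0` = node `0` -/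
structure HCell where
  (hm hp : ℕ)
  (d0 : Nd)
  (tab : List (Nd × ℕ))
  (rows : List Row)

def checkH (c : HCell) : Bool :=
  Nat.beq c.d0.x 0 && Nat.beq c.d0.g 0 && Nat.ble (c.hp + 1) 10000 && Nat.ble c.hm c.hp &&
  tabOK3 c.hp c.d0 c.tab && rows3 c.hm (c.d0 :: c.tab.map Prod.fst) c.rows

def chainH : ℕ → List HCell → Bool
  | h, [] => Nat.ble 8200 h
  | h, c :: cs => Nat.beq c.hm h && chainH c.hp cs

/-! ### R2 -/

/-- cell test for `gII (1/10) (m1/20) (m2/20)` -/
def cellOK2 (d0 d1 : Nd) (m1 m2 : ℕ) : Bool :=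
  Nat.ble m1 20 && Nat.ble 1 m2 && Nat.ble m2 20 && Nat.ble d1.x 10000 &&
  Nat.ble (d0.g * d0.g) (314159265 * d0.x) && Nat.ble (d1.g * d1.g) (314159265 * d1.x) &&
  Nat.ble (d0.g + 5000 * m1) (5 * m1 * d0.x + kt m1) &&
  Nat.ble (d1.g + 5000 * m1) (5 * m1 * d1.x + kt m1) &&
  Nat.ble d0.g (5 * m2 * (10000 - d0.x) + kt9 m2) &&
  Nat.ble d1.g (5 * m2 * (10000 - d1.x) + kt9 m2) && Nat.ble 1 d1.g

def tabOK2 : Nd → List (Nd × ℕ × ℕ) → Bool
  | _, [] => true
  | d0, (d1, m1, m2) :: l => cellOK2 d0 d1 m1 m2 && tabOK2 d1 l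

/-- one box of R2 (parameter `eta` unused); `s0` in `c3` cells from cell `j` on, `s1` in the first `c1` cells -/
def box2 (c1 j : ℕ) (nds : List Nd) (q : Par) : Bool :=
  match nds with
  | d0 :: d1 :: l =>
    let L : Ln := ⟨q.Ep, q.En, q.lam, 0⟩
    let rest := d1 :: l
    let st0 := start L d0 d1
    let F := F10 q.lam + 100 * q.En + 1
    if Nat.ble c1 j then
      let st1 := run L st0 (rest.take c1)
      let st2 := run L st1 ((rest.drop c1).take (j - c1))
      let r := runM L st2 st2.pb ((rest.drop j).take q.c3)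
      r.1.ok && Nat.ble F (100 * q.Ep + (st2.T - st1.T) / 2)
    else
      let st2 := run L st0 (rest.take j)
      let st3 := run L st2 ((rest.drop j).take q.c3)
      st3.ok && Nat.ble F (100 * q.Ep)
  | _ => false

def row2 (c1 : ℕ) (nds : List Nd) : ℕ → List Par → Bool
  | _, [] => true
  | j, q :: qs => (skip j nds || box2 c1 j nds q) && row2 c1 nds (j + q.c3) qs

/-- `s0` in `[4/10, 82/100]` -/
def rows2 : List Nd → List Row → Bool
  | nds, [] => Nat.ble 5000 (nds.headD ⟨0, 0, 0⟩).x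
  | nds, r :: rs =>
    row2 r.c1 nds r.j0 r.ps &&
    (Nat.beq r.j0 0 || Nat.ble ((nds.getD r.j0 ⟨10001, 0, 0⟩).x) 4000) &&
    Nat.ble 8200 ((nds.getD (r.j0 + lenPs r.ps) ⟨0, 0, 0⟩).x) &&
    rows2 (nds.drop r.c1) rs

structure Cell2 where
  (d0 : Nd)
  (tab : List (Nd × ℕ × ℕ))
  (rows : List Row)

def check2 (c : Cell2) : Bool :=
  Nat.beq c.d0.x 0 && Nat.beq c.d0.g 0 &&
  tabOK2 c.d0 c.tab && rows2 (c.d0 :: c.tab.map Prod.fst) c.rows

end Crest.Agent.T3.Pl
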