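import Crest.Agent.T3.NodeTab
import Crest.Agent.T3.R3Def
import Crest.Agent.IT.StdFinal

/-! Row 214, checker: soundness of the tables `kt`, `kt9`, of `F10` and `S8` (helper25). -/

set_option autoImplicit false
open MeasureTheory Set Filter Topology

namespace Crest.Agent.T3.Pl

def ct1 : List (ℕ × ℕ) := [(0, 0), (0, 0), (100167, 994987), (150568, 988685), (201357, 979795), (252680, 968245), (304692, 953939), (357571, 936749), (411516, 916515), (466765, 893028), (523598, 866025), (582364, 835164), (643501, 800000), (707584, 759934), (775397, 714142), (848062, 661437), (927295, 600000), (1015985, 526782), (1119769, 435889), (1253234, 312249), (0, 0)]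

def ct9 : List (ℕ × ℕ) := [(0, 0), (45015, 998986), (90121, 995941), (135413, 990845), (180986, 983666), (226943, 974358), (273393, 962860), (320456, 949091), (368267, 932952), (416978, 914316), (466765, 893028), (517834, 868892), (570437, 841665), (624880, 811033), (681553, 776595), (740964, 737817), (803802, 693974), (871041, 644030), (944152, 586429), (1025550, 518627), (1119769, 435889)]

theorem ct1_ok : ∀ k < 18, kfOK 10000 (k + 2) (ct1.getD (k + 2) (0, 0)).1
    (ct1.getD (k + 2) (0, 0)).2 (kt (k + 2)) = true := by decide +kernel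

theorem ct9_ok : ∀ k < 20, kfOK 9000 (k + 1) (ct9.getD (k + 1) (0, 0)).1
    (ct9.getD (k + 1) (0, 0)).2 (kt9 (k + 1)) = true := by decide +kernel

theorem Kf_lower1 (m l : ℝ) (hm : 0 ≤ m) (hl : 0 ≤ l) (hlm : l * m ≤ 1) :
    m - l ^ 2 * m ^ 3 / 6 - l ^ 4 * m ^ 5 / 10 ≤ Kf m l := by
  have h1 : ∫ u in (0 : ℝ)..m, (1 - l ^ 2 * u ^ 2 / 2 - l ^ 4 * u ^ 4 / 2) =
      m - l ^ 2 * m ^ 3 / 6 - l ^ 4 * m ^ 5 / 10 := by
    have hd : ∀ u : ℝ, HasDerivAt (fun u : ℝ => u - l ^ 2 * u ^ 3 / 6 - l ^ 4 * u ^ 5 / 10)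
        (1 - l ^ 2 * u ^ 2 / 2 - l ^ 4 * u ^ 4 / 2) u := by
      intro u
      have := ((hasDerivAt_id u).sub ((((hasDerivAt_id u).pow 3).const_mul (l ^ 2)).div_const 6)).sub
        ((((hasDerivAt_id u).pow 5).const_mul (l ^ 4)).div_const 10)
      refine HasDerivAt.congr_deriv (f := fun u : ℝ => u - l ^ 2 * u ^ 3 / 6 - l ^ 4 * u ^ 5 / 10)
        this ?_
      simp; ring
    rw [intervalIntegral.integral_eq_sub_of_hasDerivAt (fun u _ => hd u)
      (Continuous.intervalIntegrable (by fun_prop) _ _)]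
    ring
  rw [← h1]
  unfold Kf
  refine intervalIntegral.integral_mono_on hm (Continuous.intervalIntegrable (by fun_prop) _ _)
    (Continuous.intervalIntegrable (by fun_prop) _ _) fun u hu => ?_
  have hy0 : 0 ≤ l * u := mul_nonneg hl hu.1
  have hy1 : l * u ≤ 1 := (mul_le_mul_of_nonneg_left hu.2 hl).trans hlm
  apply Real.le_sqrt_of_sq_le
  set y := l * u with hy
  have e : l ^ 2 * u ^ 2 = y ^ 2 := by rw [hy]; ring
  have e2 : l ^ 4 * u ^ 4 = y ^ 4 := by rw [hy]; ring
  rw [e, e2]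
  have hz0 : 0 ≤ y ^ 2 := sq_nonneg y
  have hz1 : y ^ 2 ≤ 1 := by nlinarith
  have e3 : y ^ 4 = (y ^ 2) ^ 2 := by ring
  rw [e3]
  set z := y ^ 2
  nlinarith [mul_nonneg hz0 hz0, mul_nonneg (mul_nonneg hz0 hz0) (sub_nonneg.2 hz1),
    mul_nonneg (mul_nonneg (mul_nonneg hz0 hz0) hz0) (sub_nonneg.2 hz1)]

theorem Kf_lower2 (m l : ℝ) (hm : 0 ≤ m) (hl : 0 ≤ l) (hlm : l * m ≤ 65 / 100) :
    m - l ^ 2 * m ^ 3 / 6 - l ^ 4 * m ^ 5 / 30 ≤ Kf m l := by
  have h1 : ∫ u in (0 : ℝ)..m, (1 - l ^ 2 * u ^ 2 / 2 - l ^ 4 * u ^ 4 / 6) =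
      m - l ^ 2 * m ^ 3 / 6 - l ^ 4 * m ^ 5 / 30 := by
    have hd : ∀ u : ℝ, HasDerivAt (fun u : ℝ => u - l ^ 2 * u ^ 3 / 6 - l ^ 4 * u ^ 5 / 30)
        (1 - l ^ 2 * u ^ 2 / 2 - l ^ 4 * u ^ 4 / 6) u := by
      intro u
      have := ((hasDerivAt_id u).sub ((((hasDerivAt_id u).pow 3).const_mul (l ^ 2)).div_const 6)).sub
        ((((hasDerivAt_id u).pow 5).const_mul (l ^ 4)).div_const 30)
      refine HasDerivAt.congr_deriv (f := fun u : ℝ => u - l ^ 2 * u ^ 3 / 6 - l ^ 4 * u ^ 5 / 30)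
        this ?_
      simp; ring
    rw [intervalIntegral.integral_eq_sub_of_hasDerivAt (fun u _ => hd u)
      (Continuous.intervalIntegrable (by fun_prop) _ _)]
    ring
  rw [← h1]
  unfold Kf
  refine intervalIntegral.integral_mono_on hm (Continuous.intervalIntegrable (by fun_prop) _ _)
    (Continuous.intervalIntegrable (by fun_prop) _ _) fun u hu => ?_
  have hy0 : 0 ≤ l * u := mul_nonneg hl hu.1
  have hy1 : l * u ≤ 65 / 100 := (mul_le_mul_of_nonneg_left hu.2 hl).trans hlm
  apply Real.le_sqrt_of_sq_le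
  set y := l * u with hy
  have e : l ^ 2 * u ^ 2 = y ^ 2 := by rw [hy]; ring
  have e2 : l ^ 4 * u ^ 4 = y ^ 4 := by rw [hy]; ring
  rw [e, e2]
  have hz0 : 0 ≤ y ^ 2 := sq_nonneg y
  have hz1 : y ^ 2 ≤ 4225 / 10000 := by nlinarith
  have e3 : y ^ 4 = (y ^ 2) ^ 2 := by ring
  rw [e3]
  set z := y ^ 2
  nlinarith [mul_nonneg hz0 hz0, mul_nonneg (mul_nonneg hz0 hz0) (sub_nonneg.2 hz1),
    mul_nonneg (mul_nonneg (mul_nonneg hz0 hz0) hz0) (sub_nonneg.2 hz1)]

theorem kt_sound (m : ℕ) (hm : m ≤ 20) : ((kt m : ℕ) : ℝ) / 10 ^ 6 ≤ Kf 1 ((m : ℝ) / 20) := by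
  rcases Nat.lt_or_ge m 2 with h | h
  · have : m = 0 ∨ m = 1 := by omega
    rcases this with rfl | rfl
    · have h0 : kt 0 = 1000000 := rfl
      rw [h0]
      have : Kf 1 (((0 : ℕ) : ℝ) / 20) = 1 := by simp [Kf]
      rw [this]; norm_num
    · have h0 : kt 1 = 999578 := rfl
      rw [h0]
      refine le_trans ?_ (Kf_lower1 1 (((1 : ℕ) : ℝ) / 20) zero_le_one (by positivity) (by norm_num))
      norm_num
  · rcases Nat.lt_or_ge m 20 with h2 | h2
    · obtain ⟨k, rfl⟩ : ∃ k, m = k + 2 := ⟨m - 2, by omega⟩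
      have := kfOK_sound (ct1_ok k (by omega))
      have e : ((10000 : ℕ) : ℝ) / 10 ^ 4 = 1 := by norm_num
      rw [e] at this
      exact this
    · have : m = 20 := by omega
      subst this
      have h0 : kt 20 = 785393 := rfl
      rw [h0]
      have h1 : Kf 1 (((20 : ℕ) : ℝ) / 20) = Real.pi / 4 := by
        have := Kf_full 1 one_pos
        norm_num at this ⊢
        exact this
      rw [h1]
      have := Real.pi_gt_d6
      norm_num
      linarith

theorem kt9_sound (m : ℕ) (hm : m ≤ 20) :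
    ((kt9 m : ℕ) : ℝ) / 10 ^ 6 ≤ Kf (9 / 10) ((m : ℝ) / 20) := by
  rcases Nat.eq_zero_or_pos m with rfl | h
  · have h0 : kt9 0 = 900000 := rfl
    rw [h0]
    have : Kf (9 / 10) (((0 : ℕ) : ℝ) / 20) = 9 / 10 := by simp [Kf]
    rw [this]; norm_num
  · obtain ⟨k, rfl⟩ : ∃ k, m = k + 1 := ⟨m - 1, by omega⟩
    have := kfOK_sound (ct9_ok k (by omega))
    have e : ((9000 : ℕ) : ℝ) / 10 ^ 4 = 9 / 10 := by norm_num
    rw [e] at this
    exact this

/-! ### the profile -/

theorem half_tube (V : ℝ) : IT.prof V / 2 ≤ Real.sqrt (Real.pi * V) := by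
  unfold IT.prof
  have := (min_le_left (min ((36 * Real.pi) ^ ((1 : ℝ) / 3) * V ^ ((2 : ℝ) / 3))
    (2 * Real.sqrt (Real.pi * V))) 2).trans (min_le_right _ _)
  linarith

theorem half_one (V : ℝ) : IT.prof V / 2 ≤ 1 := by
  unfold IT.prof
  have := min_le_right (min ((36 * Real.pi) ^ ((1 : ℝ) / 3) * V ^ ((2 : ℝ) / 3))
    (2 * Real.sqrt (Real.pi * V))) 2
  linarith

theorem prof_ball_line (V l : ℝ) (hV : 0 ≤ V) (hl : 0 < l) :
    IT.prof V / 2 ≤ l * V + 2 * Real.pi / (3 * l ^ 2) := by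
  have hpi := Real.pi_pos
  have h1 : IT.prof V / 2 ≤ ((36 * Real.pi) ^ ((1 : ℝ) / 3) * V ^ ((2 : ℝ) / 3)) / 2 := by
    unfold IT.prof
    have := (min_le_left (min ((36 * Real.pi) ^ ((1 : ℝ) / 3) * V ^ ((2 : ℝ) / 3))
      (2 * Real.sqrt (Real.pi * V))) 2).trans (min_le_left _ _)
    linarith
  refine h1.trans ?_
  have h2 := IT.beta_pow V hV
  set B := (36 * Real.pi) ^ ((1 : ℝ) / 3) * V ^ ((2 : ℝ) / 3)
  have hx : 0 ≤ l * V / 2 := by positivity
  have hz : 0 ≤ 2 * Real.pi / (3 * l ^ 2) := by positivity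
  have h3 : (l * V / 2) ^ 2 * (2 * Real.pi / (3 * l ^ 2)) = Real.pi * V ^ 2 / 6 := by
    field_simp; ring
  set x := l * V / 2 with hxd
  set z := 2 * Real.pi / (3 * l ^ 2)
  have h4 : (B / 2) ^ 3 ≤ (2 * x + z) ^ 3 := by
    have e1 : (B / 2) ^ 3 = 27 * (x ^ 2 * z) := by
      rw [h3, div_pow, h2]; ring
    rw [e1]
    have : (2 * x + z) ^ 3 - 27 * (x ^ 2 * z) = (z - x) ^ 2 * (z + 8 * x) := by ring
    have h5 : 0 ≤ (z - x) ^ 2 * (z + 8 * x) := by positivity
    linarith
  have h5 : B / 2 ≤ 2 * x + z := le_of_pow_le_pow_left₀ (by norm_num) (by positivity) h4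
  have h6 : l * V + z = 2 * x + z := by rw [hxd]; ring
  rw [h6]; exact h5

theorem prof_tube_line (V l : ℝ) (hV : 0 ≤ V) (hl : 0 < l) :
    IT.prof V / 2 ≤ l * V + Real.pi / (4 * l) := by
  have hpi := Real.pi_pos
  refine (half_tube V).trans ?_
  have hw : Real.sqrt (Real.pi * V) ^ 2 = Real.pi * V := Real.sq_sqrt (by positivity)
  set w := Real.sqrt (Real.pi * V)
  have hV2 : V = w ^ 2 / Real.pi := by rw [hw]; field_simp
  rw [hV2]
  have e : l * (w ^ 2 / Real.pi) + Real.pi / (4 * l) - w = (2 * l * w - Real.pi) ^ 2 / (4 * l * Real.pi) := by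
    field_simp; ring
  have : 0 ≤ (2 * l * w - Real.pi) ^ 2 / (4 * l * Real.pi) := by positivity
  linarith

theorem prof_slab_line (V l : ℝ) (hV : 0 ≤ V) (hl : 0 ≤ l) (hl2 : l ≤ Real.pi / 2) :
    IT.prof V / 2 ≤ l * V + (1 - l / Real.pi) := by
  have hpi := Real.pi_pos
  have hlp : l / Real.pi ≤ 1 / 2 := by rw [div_le_iff₀ hpi]; linarith
  have hlp0 : 0 ≤ l / Real.pi := by positivity
  rcases le_total (1 / Real.pi) V with h | h
  · refine (half_one V).trans ?_
    have : l * (1 / Real.pi) ≤ l * V := mul_le_mul_of_nonneg_left h hl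
    have e : l * (1 / Real.pi) = l / Real.pi := by ring
    linarith
  · refine (half_tube V).trans ?_
    have hw : Real.sqrt (Real.pi * V) ^ 2 = Real.pi * V := Real.sq_sqrt (by positivity)
    have hw0 : 0 ≤ Real.sqrt (Real.pi * V) := Real.sqrt_nonneg _
    have hw1 : Real.sqrt (Real.pi * V) ≤ 1 := by
      rw [Real.sqrt_le_left zero_le_one]
      rw [le_div_iff₀ hpi] at h
      linarith
    set w := Real.sqrt (Real.pi * V)
    have hV2 : l * V = (l / Real.pi) * w ^ 2 := by rw [hw]; field_simp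
    rw [hV2]
    nlinarith [mul_nonneg (sub_nonneg.2 hw1) (sub_nonneg.2 (show (l / Real.pi) * (1 + w) ≤ 1 by
      nlinarith))]

theorem nat_div_le (a b : ℕ) : ((a : ℝ) / b) ≤ ((a / b + 1 : ℕ) : ℝ) := by
  rcases Nat.eq_zero_or_pos b with rfl | hb
  · simp
  · have hb' : (0 : ℝ) < b := by exact_mod_cast hb
    rw [div_le_iff₀ hb']
    have : a < (a / b + 1) * b := by
      have := Nat.lt_succ_self (a / b)
      rw [← Nat.div_lt_iff_lt_mul hb]
      exact this
    exact_mod_cast this.le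

/-- soundness of `F10` -/
theorem F10_sound (lam : ℕ) (V : ℝ) (hV : 0 ≤ V) :
    IT.prof V / 2 ≤ (lam : ℝ) / 10 ^ 4 * V + (F10 lam : ℝ) / 10 ^ 10 := by
  have hpi1 := Real.pi_gt_d20
  have hpi2 := Real.pi_lt_d20
  have hpi := Real.pi_pos
  have hlam0 : (0 : ℝ) ≤ lam := Nat.cast_nonneg lam
  unfold F10
  by_cases h1 : Nat.ble lam 15707 = true
  · rw [if_pos h1]
    rw [Nat.ble_eq] at h1
    have h1' : (lam : ℝ) ≤ 15707 := by exact_mod_cast h1
    have hsub : lam * 318309 ≤ 10000000000 := by omega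
    refine (prof_slab_line V ((lam : ℝ) / 10 ^ 4) hV (by positivity) ?_).trans ?_
    · rw [div_le_iff₀ (by norm_num)]; nlinarith
    · rw [Nat.cast_sub hsub]
      push_cast
      have h3 : (lam : ℝ) * 318309 / 10 ^ 10 ≤ (lam : ℝ) / 10 ^ 4 / Real.pi := by
        rw [div_div, div_le_div_iff₀ (by norm_num) (by positivity)]
        nlinarith
      have h4 : (10000000000 - (lam : ℝ) * 318309) / 10 ^ 10 = 1 - (lam : ℝ) * 318309 / 10 ^ 10 := by
        ring
      rw [h4]; linarith
  · rw [if_neg h1]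
    rw [Nat.ble_eq, not_le] at h1
    have h1' : (15707 : ℝ) < lam := by exact_mod_cast h1
    have hlp : (0 : ℝ) < (lam : ℝ) / 10 ^ 4 := by positivity
    by_cases h2 : Nat.ble lam 22500 = true
    · rw [if_pos h2]
      refine (prof_tube_line V _ hV hlp).trans ?_
      have h3 := nat_div_le 78539817000000 lam
      have h4 : Real.pi / (4 * ((lam : ℝ) / 10 ^ 4)) ≤
          ((78539817000000 / lam + 1 : ℕ) : ℝ) / 10 ^ 10 := by
        rw [le_div_iff₀ (by norm_num)]
        refine le_trans ?_ h3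
        have e : Real.pi / (4 * ((lam : ℝ) / 10 ^ 4)) * 10 ^ 10 = (Real.pi / 4 * 10 ^ 14) / lam := by
          field_simp
        rw [e]
        push_cast
        gcongr
        nlinarith
      linarith
    · rw [if_neg h2]
      rw [Nat.ble_eq, not_le] at h2
      have h2' : (22500 : ℝ) < lam := by exact_mod_cast h2
      by_cases h3 : Nat.ble lam 30000 = true
      · rw [if_pos h3]
        rw [Nat.ble_eq] at h3
        have h3' : (lam : ℝ) ≤ 30000 := by exact_mod_cast h3
        have hsub : lam * 155140 ≤ 6981317009 := by omega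
        rw [Nat.cast_sub hsub]
        push_cast
        have hmain : IT.prof V / 2 ≤ 2 * Real.pi / 9 + (lam : ℝ) / 10 ^ 4 * (V - 4 * Real.pi / 81) := by
          rcases le_total (4 * Real.pi / 81) V with hV1 | hV1
          · refine (prof_tube_line V (9 / 4) hV (by norm_num)).trans ?_
            have : (9 / 4 : ℝ) * (V - 4 * Real.pi / 81) ≤
                (lam : ℝ) / 10 ^ 4 * (V - 4 * Real.pi / 81) := by
              apply mul_le_mul_of_nonneg_right
              · rw [le_div_iff₀ (by norm_num)]; linarith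
              · linarith
            have e : (9 / 4 : ℝ) * V + Real.pi / (4 * (9 / 4)) =
                2 * Real.pi / 9 + (9 / 4 : ℝ) * (V - 4 * Real.pi / 81) := by ring
            rw [e]; linarith
          · refine (prof_ball_line V 3 hV (by norm_num)).trans ?_
            have : (3 : ℝ) * (V - 4 * Real.pi / 81) ≤
                (lam : ℝ) / 10 ^ 4 * (V - 4 * Real.pi / 81) := by
              apply mul_le_mul_of_nonpos_right
              · rw [div_le_iff₀ (by norm_num)]; linarith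
              · linarith
            have e : (3 : ℝ) * V + 2 * Real.pi / (3 * 3 ^ 2) =
                2 * Real.pi / 9 + (3 : ℝ) * (V - 4 * Real.pi / 81) := by ring
            rw [e]; linarith
        refine hmain.trans ?_
        have h5 : 2 * Real.pi / 9 ≤ 6981317009 / 10 ^ 10 := by
          rw [div_le_div_iff₀ (by norm_num) (by norm_num)]; nlinarith
        have h6 : (lam : ℝ) * 155140 / 10 ^ 10 ≤ (lam : ℝ) / 10 ^ 4 * (4 * Real.pi / 81) := by
          have : (155140 : ℝ) / 10 ^ 6 ≤ 4 * Real.pi / 81 := by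
            rw [div_le_div_iff₀ (by norm_num) (by norm_num)]; nlinarith
          have e : (lam : ℝ) * 155140 / 10 ^ 10 = (lam : ℝ) / 10 ^ 4 * (155140 / 10 ^ 6) := by ring
          rw [e]
          exact mul_le_mul_of_nonneg_left this hlp.le
        have e7 : (6981317009 - (lam : ℝ) * 155140) / 10 ^ 10 =
            6981317009 / 10 ^ 10 - (lam : ℝ) * 155140 / 10 ^ 10 := by ring
        rw [e7]; linarith
      · rw [if_neg h3]
        refine (prof_ball_line V _ hV hlp).trans ?_
        have h4 := nat_div_le 2094395102400000000 (lam * lam)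
        have h5 : 2 * Real.pi / (3 * ((lam : ℝ) / 10 ^ 4) ^ 2) ≤
            ((2094395102400000000 / (lam * lam) + 1 : ℕ) : ℝ) / 10 ^ 10 := by
          rw [le_div_iff₀ (by norm_num)]
          refine le_trans ?_ h4
          have e : 2 * Real.pi / (3 * ((lam : ℝ) / 10 ^ 4) ^ 2) * 10 ^ 10 =
              (2 * Real.pi / 3 * 10 ^ 18) / (lam * lam) := by
            field_simp
          rw [e]
          push_cast
          gcongr
          nlinarith
        linarith

theorem S8_sound (eta : ℕ) (h : eta ≤ 99999) :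
    (S8 eta : ℝ) / 10 ^ 8 ≤ Kf (1 / 10) ((eta : ℝ) / 10 ^ 4) := by
  have h0 : (0 : ℝ) ≤ eta := Nat.cast_nonneg eta
  have h' : (eta : ℝ) ≤ 99999 := by exact_mod_cast h
  have hK0 : 0 ≤ Kf (1 / 10) ((eta : ℝ) / 10 ^ 4) := by
    unfold Kf
    exact intervalIntegral.integral_nonneg (by norm_num) fun u _ => Real.sqrt_nonneg _
  have hq1 := nat_div_le (eta * eta) 6000
  push_cast at hq1
  unfold S8
  by_cases h1 : Nat.ble eta 65000 = true
  · rw [if_pos h1]
    rw [Nat.ble_eq] at h1
    have h1' : (eta : ℝ) ≤ 65000 := by exact_mod_cast h1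
    have hL := Kf_lower2 (1 / 10) ((eta : ℝ) / 10 ^ 4) (by norm_num) (by positivity) (by
      rw [div_mul_eq_mul_div, div_le_iff₀ (by norm_num)]; linarith)
    have hq2 := nat_div_le (eta * eta * (eta * eta)) 300000000000000
    push_cast at hq2
    set A := eta * eta / 6000 + 1 with hA
    set B := eta * eta * (eta * eta) / 300000000000000 + 1 with hB
    rcases Nat.lt_or_ge 10000000 (A + B) with hc | hc
    · have : 10000000 - A - B = 0 := by omega
      rw [this]; simpa using hK0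
    · have : ((10000000 - A - B : ℕ) : ℝ) = 10000000 - A - B := by
        rw [Nat.cast_sub (by omega), Nat.cast_sub (by omega)]; norm_num
      rw [this]
      refine le_trans ?_ hL
      have hA' : (eta : ℝ) * eta / 6000 ≤ A := by rw [hA]; push_cast; exact hq1
      have hB' : (eta : ℝ) * eta * (eta * eta) / 300000000000000 ≤ B := by
        rw [hB]; push_cast; exact hq2
      rw [div_le_iff₀ (by norm_num)]
      have e : ((1 / 10 : ℝ) - ((eta : ℝ) / 10 ^ 4) ^ 2 * (1 / 10) ^ 3 / 6 -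
          ((eta : ℝ) / 10 ^ 4) ^ 4 * (1 / 10) ^ 5 / 30) * 10 ^ 8 =
          10000000 - (eta : ℝ) * eta / 6000 - (eta : ℝ) * eta * (eta * eta) / 300000000000000 := by
        ring
      rw [e]; linarith
  · rw [if_neg h1]
    have hL := Kf_lower1 (1 / 10) ((eta : ℝ) / 10 ^ 4) (by norm_num) (by positivity) (by
      rw [div_mul_eq_mul_div, div_le_iff₀ (by norm_num)]; linarith)
    have hq2 := nat_div_le (eta * eta * (eta * eta)) 100000000000000
    push_cast at hq2
    set A := eta * eta / 6000 + 1 with hA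
    set B := eta * eta * (eta * eta) / 100000000000000 + 1 with hB
    rcases Nat.lt_or_ge 10000000 (A + B) with hc | hc
    · have : 10000000 - A - B = 0 := by omega
      rw [this]; simpa using hK0
    · have : ((10000000 - A - B : ℕ) : ℝ) = 10000000 - A - B := by
        rw [Nat.cast_sub (by omega), Nat.cast_sub (by omega)]; norm_num
      rw [this]
      refine le_trans ?_ hL
      have hA' : (eta : ℝ) * eta / 6000 ≤ A := by rw [hA]; push_cast; exact hq1
      have hB' : (eta : ℝ) * eta * (eta * eta) / 100000000000000 ≤ B := by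
        rw [hB]; push_cast; exact hq2
      rw [div_le_iff₀ (by norm_num)]
      have e : ((1 / 10 : ℝ) - ((eta : ℝ) / 10 ^ 4) ^ 2 * (1 / 10) ^ 3 / 6 -
          ((eta : ℝ) / 10 ^ 4) ^ 4 * (1 / 10) ^ 5 / 10) * 10 ^ 8 =
          10000000 - (eta : ℝ) * eta / 6000 - (eta : ℝ) * eta * (eta * eta) / 100000000000000 := by
        ring
      rw [e]; linarith

end Crest.Agent.T3.Pl
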