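import Crest.Agent.T3.CasesR
import Crest.Agent.T3.STab
import Crest.Agent.T3.KTab
import Crest.Agent.T3.R3Def

/-! Row 214, checker: soundness of the node table of R3 and of `wA` (helper25). -/

set_option autoImplicit false
open MeasureTheory Set Filter Topology

namespace Crest.Agent.T3.Pl

theorem sqrt_chord {p q A B t : ℝ} (ht0 : 0 ≤ t) (ht1 : t ≤ 1) (hA : p ^ 2 ≤ A) (hB : q ^ 2 ≤ B) :
    (1 - t) * p + t * q ≤ Real.sqrt ((1 - t) * A + t * B) := by
  apply Real.le_sqrt_of_sq_le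
  have h1 := mul_le_mul_of_nonneg_left hA (sub_nonneg.2 ht1)
  have h2 := mul_le_mul_of_nonneg_left hB ht0
  have e : ((1 - t) * p ^ 2 + t * q ^ 2) - ((1 - t) * p + t * q) ^ 2 = t * (1 - t) * (p - q) ^ 2 := by
    ring
  have h3 : 0 ≤ t * (1 - t) * (p - q) ^ 2 :=
    mul_nonneg (mul_nonneg ht0 (sub_nonneg.2 ht1)) (sq_nonneg _)
  linarith

theorem node_sq {g x : ℕ} (h : g * g ≤ 314159265 * x) : Y g ^ 2 ≤ Real.pi * X x := by
  have h' : (g : ℝ) * g ≤ 314159265 * x := by exact_mod_cast h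
  have hpi : (3.14159265 : ℝ) ≤ Real.pi := by have := Real.pi_gt_d20; linarith
  have hx : (0 : ℝ) ≤ x := Nat.cast_nonneg x
  unfold X Y
  have e : ((g : ℝ) / 1000000) ^ 2 = (g : ℝ) * g / 1000000000000 := by ring
  rw [e, div_le_iff₀ (by norm_num)]
  have e2 : Real.pi * ((x : ℝ) / 10000) * 1000000000000 = Real.pi * 100000000 * x := by ring
  rw [e2]
  nlinarith

theorem node_sq' {g x : ℕ} (hx : x ≤ 10000) (h : g * g ≤ 314159265 * (10000 - x)) :
    Y g ^ 2 ≤ Real.pi * (1 - X x) := by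
  have := node_sq h
  have e : X (10000 - x) = 1 - X x := by
    unfold X
    rw [Nat.cast_sub hx]; push_cast; ring
  rwa [e] at this

theorem node_lin {g x h m K : ℕ} (hh : g + 5 * m * h ≤ 5 * m * x + K) :
    Y g ≤ (m : ℝ) / 20 * (X x - X h) + (K : ℝ) / 1000000 := by
  have h' : (g : ℝ) + 5 * m * h ≤ 5 * m * x + K := by exact_mod_cast hh
  unfold X Y
  rw [div_le_iff₀ (by norm_num)]
  have e : ((m : ℝ) / 20 * ((x : ℝ) / 10000 - (h : ℝ) / 10000) + (K : ℝ) / 1000000) * 1000000 =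
      5 * m * x - 5 * m * h + K := by ring
  rw [e]; linarith

/-- relation used for R3 -/
def gR3 (h : ℕ) (s c : ℝ) : Prop :=
  ∃ l1 ∈ Icc (0 : ℝ) 1, ∃ l2 ∈ Ioc (0 : ℝ) 1, c ≤ gB (X h) l1 l2 s

theorem cellOK3_sound {h : ℕ} {d0 d1 : Nd} {m1 : ℕ} (hx : d0.x ≤ 10000)
    (hc : cellOK3 h d0 d1 m1 = true) :
    CellG (fun s c => ∃ l1 ∈ Icc (0 : ℝ) 1, ∃ l2 ∈ Ioc (0 : ℝ) 1, c ≤ gB (X h) l1 l2 s)
      d0.x d0.g d1.x d1.g ∧ 0 < d1.g ∧ d1.x ≤ 10000 := by
  simp only [cellOK3, Bool.and_eq_true, Nat.ble_eq] at hc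
  obtain ⟨⟨⟨⟨⟨⟨⟨⟨hm, hx1⟩, ha0⟩, ha1⟩, hb0⟩, hb1⟩, hc0⟩, hc1⟩, hg⟩ := hc
  refine ⟨?_, by omega, hx1⟩
  intro t ht
  have hm' : (m1 : ℝ) ≤ 20 := by exact_mod_cast hm
  have hl1 : ((m1 : ℝ) / 20) ∈ Icc (0 : ℝ) 1 :=
    ⟨by positivity, by rw [div_le_one (by norm_num)]; exact hm'⟩
  refine ⟨(m1 : ℝ) / 20, hl1, 1, ⟨one_pos, le_rfl⟩, ?_⟩
  unfold gB
  refine le_min ?_ (le_min ?_ ((?_ : _ ≤ Real.sqrt _).trans (le_max_left _ _)))
  · have := sqrt_chord ht.1 ht.2 (node_sq ha0) (node_sq ha1)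
    refine this.trans (le_of_eq ?_)
    congr 1; ring
  · have hK : (kt m1 : ℝ) / 1000000 ≤ Kf 1 ((m1 : ℝ) / 20) := kt_le m1 hm
    have h0 := node_lin hb0
    have h1 := node_lin hb1
    have h2 := mul_le_mul_of_nonneg_left (h0.trans (add_le_add_right hK _)) (sub_nonneg.2 ht.2)
    have h3 := mul_le_mul_of_nonneg_left (h1.trans (add_le_add_right hK _)) ht.1
    have e : (m1 : ℝ) / 20 * ((1 - t) * X d0.x + t * X d1.x - X h) + Kf 1 ((m1 : ℝ) / 20) =
        (1 - t) * ((m1 : ℝ) / 20 * (X d0.x - X h) + Kf 1 ((m1 : ℝ) / 20)) +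
        t * ((m1 : ℝ) / 20 * (X d1.x - X h) + Kf 1 ((m1 : ℝ) / 20)) := by ring
    rw [e]
    linarith
  · have := sqrt_chord ht.1 ht.2 (node_sq' hx hc0) (node_sq' hx1 hc1)
    refine this.trans (le_of_eq ?_)
    congr 1; ring

theorem tab3_chain {h : ℕ} {l : List (Nd × ℕ)} {d0 : Nd} (hx : d0.x ≤ 10000)
    (hc : tabOK3 h d0 l = true) :
    ChainG (fun s c => ∃ l1 ∈ Icc (0 : ℝ) 1, ∃ l2 ∈ Ioc (0 : ℝ) 1, c ≤ gB (X h) l1 l2 s)
      d0.x d0.g (l.map Prod.fst) := by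
  induction l generalizing d0 with
  | nil => exact trivial
  | cons p l ih =>
    obtain ⟨d1, m1⟩ := p
    simp only [tabOK3, Bool.and_eq_true] at hc
    have h1 := cellOK3_sound hx hc.1
    exact ⟨h1.1, h1.2.1, ih h1.2.2 hc.2⟩

theorem wA_sound {hm x : ℕ} (hhm : hm < 10000) (hx : x ≤ 10000) :
    (wA hm x : ℝ) / 1000000 ≤ gA ((hm : ℝ) / 10000) ((x : ℝ) / 10000) := by
  have hpi : (3.14159265 : ℝ) ≤ Real.pi := by have := Real.pi_gt_d20; linarith
  have hpi2 : Real.pi ≤ (3.14159266 : ℝ) := by have := Real.pi_lt_d20; linarith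
  have hhm' : (hm : ℝ) < 10000 := by exact_mod_cast hhm
  have hx' : (x : ℝ) ≤ 10000 := by exact_mod_cast hx
  have cH : ((10000 - hm : ℕ) : ℝ) = 10000 - hm := by rw [Nat.cast_sub hhm.le]; norm_num
  have cX : ((10000 - x : ℕ) : ℝ) = 10000 - x := by rw [Nat.cast_sub hx]; norm_num
  have hHpos : (0 : ℝ) < 10000 - hm := by linarith
  unfold wA
  split_ifs with hok
  · rw [okA, Nat.ble_eq] at hok
    have hok' : (314159266 : ℝ) * ((10000 - hm) * (10000 - hm)) ≤ (10000 - x) * 4000000000000 := by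
      have : ((314159266 * ((10000 - hm) * (10000 - hm)) : ℕ) : ℝ) ≤
          (((10000 - x) * 4000000000000 : ℕ) : ℝ) := by exact_mod_cast hok
      push_cast [cH, cX] at this
      exact this
    have hcond : (1 - (hm : ℝ) / 10000) ^ 2 ≤ 4 * (1 - (x : ℝ) / 10000) / Real.pi := by
      rw [le_div_iff₀ Real.pi_pos]
      have h1 : (1 - (hm : ℝ) / 10000) ^ 2 * Real.pi ≤ (1 - (hm : ℝ) / 10000) ^ 2 * 3.14159266 :=
        mul_le_mul_of_nonneg_left hpi2 (sq_nonneg _)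
      refine h1.trans ?_
      have e : (1 - (hm : ℝ) / 10000) ^ 2 * 3.14159266 =
          (314159266 * ((10000 - hm) * (10000 - hm))) / 10000000000000000 := by ring
      have e2 : 4 * (1 - (x : ℝ) / 10000) = ((10000 - x) * 4000000000000) / 10000000000000000 := by
        ring
      rw [e, e2]
      exact div_le_div_of_nonneg_right hok' (by norm_num)
    unfold gA
    rw [if_pos hcond]
    have h1 : (((10000 - hm) * 314159265 / 4000000 : ℕ) : ℝ) ≤
        (10000 - hm) * 314159265 / 4000000 := by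
      refine Nat.cast_div_le.trans (le_of_eq ?_)
      push_cast [cH]; ring
    have h2 : (((10000 - x) * 1000000 / (10000 - hm) : ℕ) : ℝ) ≤
        (10000 - x) * 1000000 / (10000 - hm) := by
      refine Nat.cast_div_le.trans (le_of_eq ?_)
      push_cast [cH, cX]; ring
    rw [Nat.cast_add, div_le_iff₀ (by norm_num)]
    refine (add_le_add h1 h2).trans ?_
    have e : (Real.pi * (1 - (hm : ℝ) / 10000) / 4 + (1 - (x : ℝ) / 10000) / (1 - (hm : ℝ) / 10000)) *
        1000000 = Real.pi * 25 * (10000 - hm) + (10000 - x) * 1000000 / (10000 - hm) := by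
      have : (1 - (hm : ℝ) / 10000) ≠ 0 := by
        have : (hm : ℝ) / 10000 < 1 := by rw [div_lt_one (by norm_num)]; exact hhm'
        linarith
      field_simp
      ring
    rw [e]
    nlinarith
  · refine le_trans ?_ (gA_ge_sqrt _ _ ?_ ?_)
    · apply Real.le_sqrt_of_sq_le
      have h1 := isq_sq ((10000 - x) * 314159265) 1000000
      set y := isq ((10000 - x) * 314159265) 1000000
      have h2 : (y : ℝ) * y ≤ (10000 - x) * 314159265 := by
        have : ((y * y : ℕ) : ℝ) ≤ (((10000 - x) * 314159265 : ℕ) : ℝ) := by exact_mod_cast h1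
        push_cast [cX] at this
        exact this
      have e : ((y : ℝ) / 1000000) ^ 2 = (y : ℝ) * y / 1000000000000 := by ring
      rw [e, div_le_iff₀ (by norm_num)]
      have e2 : Real.pi * (1 - (x : ℝ) / 10000) * 1000000000000 =
          Real.pi * 100000000 * (10000 - x) := by ring
      rw [e2]
      nlinarith
    · rw [div_lt_one (by norm_num)]; exact hhm'
    · rw [div_le_one (by norm_num)]; exact hx'

end Crest.Agent.T3.Pl
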