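import Crest.Agent.T3.RigFub
import Crest.Agent.T3.RigArc
import Crest.Agent.T3.RigStn1
import Crest.Agent.T3.RigStn2
import Crest.Agent.T3.RigStn3
import Crest.Agent.T3.RigBas
import Crest.Agent.T3.RigL2
import Crest.Agent.T3.RigLim
import Crest.Agent.IT.Moll
/-! Row 214: elementary facts on the Steiner symmetrisation `St k E` (proofs in `RigStn1`, `RigStn2`,
`RigStn3`). -/
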