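import Crest.Agent.T3.RigShape
import Crest.Agent.T3.Fold
/-! Row 214, rigidity (7a), chunk RIG-TUBEA. -/
set_option autoImplicit false
open MeasureTheory Set Filter Topology
open Crest.GeometryTopology.PeriodicPerimeter
namespace Crest.Agent.T3
noncomputable section

private theorem TA_abs (x : ℝ) : |x - round x| = fold x / 2 := by
  unfold fold; ring

private theorem TA_sq (x : ℝ) : (fold x / 2) ^ 2 = (x - round x) ^ 2 := by
  rw [← TA_abs, sq_abs]

/-- derivatives of the profile: with `s = y i - round (y i)`, `|s| < r`: `∂_i L = -2 s/√(r²-s²)`, the other one is `0`,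
`√(4+|∇L|²) = 2r/√(r²-s²)`, `ph0 L i = s/r`. -/
theorem LT_dd (i : Fin 2) (r : ℝ) (h0 : 0 < r) (h1 : r < 1 / 2) (y : E2) (hy : y ∈ GG (LT i r)) :
    |y i - round (y i)| < r ∧
    (∀ j : Fin 2, dd j (LT i r) y = if j = i then
      -2 * (y i - round (y i)) / Real.sqrt (r ^ 2 - (y i - round (y i)) ^ 2) else 0) ∧
    Real.sqrt (4 + (dd 0 (LT i r) y) ^ 2 + (dd 1 (LT i r) y) ^ 2) =
      2 * r / Real.sqrt (r ^ 2 - (y i - round (y i)) ^ 2) := by
  set m : ℤ := round (y i) with hm
  set s : ℝ := y i - m with hs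
  have hpos : 0 < Real.sqrt (r ^ 2 - s ^ 2) := by
    have h := hy.1
    unfold LT at h
    rw [TA_sq, ← hm, ← hs] at h
    linarith
  have hpos2 : 0 < r ^ 2 - s ^ 2 := Real.sqrt_pos.1 hpos
  have hsr : |s| < r := by
    apply abs_lt_of_sq_lt_sq (by linarith) h0.le
  have hsr' := abs_lt.1 hsr
  -- the profile near `y`
  have hev : LT i r =ᶠ[𝓝 y] fun z : E2 => 2 * Real.sqrt (r ^ 2 - (z i - m) ^ 2) := by
    have hc : Continuous (fun z : E2 => z i) := by fun_prop
    have hopen : {z : E2 | |z i - m| < 1 / 2} ∈ 𝓝 y := by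
      refine IsOpen.mem_nhds ?_ ?_
      · exact isOpen_lt ((hc.sub continuous_const).abs) continuous_const
      · show |y i - m| < 1 / 2
        linarith
    filter_upwards [hopen] with z hz
    have hz' := abs_lt.1 (show |z i - m| < 1 / 2 from hz)
    have hr : round (z i) = m := by
      rw [round_eq, Int.floor_eq_iff]
      constructor <;> linarith
    unfold LT
    rw [TA_sq, hr]
  have hder : HasFDerivAt (fun z : E2 => 2 * Real.sqrt (r ^ 2 - (z i - m) ^ 2))
      ((-2 * s / Real.sqrt (r ^ 2 - s ^ 2)) • (EuclideanSpace.proj i : E2 →L[ℝ] ℝ)) y := by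
    have e1 : HasFDerivAt (fun z : E2 => z i) (EuclideanSpace.proj i : E2 →L[ℝ] ℝ) y :=
      (EuclideanSpace.proj i : E2 →L[ℝ] ℝ).hasFDerivAt
    have e2 : HasDerivAt (fun t : ℝ => 2 * Real.sqrt (r ^ 2 - (t - m) ^ 2))
        (-2 * s / Real.sqrt (r ^ 2 - s ^ 2)) (y i) := by
      have e3 : HasDerivAt (fun t : ℝ => r ^ 2 - (t - m) ^ 2) (-(2 * s)) (y i) := by
        have e4 : HasDerivAt (fun t : ℝ => (t - m) ^ 2) (2 * s) (y i) := by
          have e5 : HasDerivAt (fun t : ℝ => t - m) 1 (y i) :=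
            (hasDerivAt_id (y i)).sub_const (m : ℝ)
          have e6 := e5.fun_pow 2
          simpa [← hs] using e6
        simpa using e4.const_sub (r ^ 2)
      have e6 := (e3.sqrt hpos2.ne').const_mul 2
      have e7 : 2 * (-(2 * s) / (2 * Real.sqrt (r ^ 2 - s ^ 2))) =
          -2 * s / Real.sqrt (r ^ 2 - s ^ 2) := by
        field_simp
      rw [← e7]
      exact e6
    exact HasDerivAt.comp_hasFDerivAt (h₂ := fun t : ℝ => 2 * Real.sqrt (r ^ 2 - (t - m) ^ 2)) y e2 e1
  have hfd : fderiv ℝ (LT i r) y =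
      (-2 * s / Real.sqrt (r ^ 2 - s ^ 2)) • (EuclideanSpace.proj i : E2 →L[ℝ] ℝ) := by
    rw [hev.fderiv_eq]
    exact hder.fderiv
  have hdd : ∀ j : Fin 2, dd j (LT i r) y = if j = i then
      -2 * s / Real.sqrt (r ^ 2 - s ^ 2) else 0 := by
    intro j
    unfold dd
    rw [hfd]
    by_cases hji : j = i
    · subst hji
      simp
    · rw [if_neg hji]
      have hij : ¬ i = j := fun h => hji h.symm
      simp [hij]
  refine ⟨hsr, hdd, ?_⟩
  have hsum : (dd 0 (LT i r) y) ^ 2 + (dd 1 (LT i r) y) ^ 2 =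
      (-2 * s / Real.sqrt (r ^ 2 - s ^ 2)) ^ 2 := by
    rw [hdd 0, hdd 1]
    fin_cases i <;> simp
  rw [add_assoc, hsum]
  have hsq : Real.sqrt (r ^ 2 - s ^ 2) ^ 2 = r ^ 2 - s ^ 2 := Real.sq_sqrt hpos2.le
  have e8 : 4 + (-2 * s / Real.sqrt (r ^ 2 - s ^ 2)) ^ 2 =
      (2 * r / Real.sqrt (r ^ 2 - s ^ 2)) ^ 2 := by
    rw [div_pow, div_pow, hsq]
    field_simp
    ring
  rw [e8, Real.sqrt_sq (by positivity)]

/-- the one-dimensional integrand -/
private def TAh (r r1 u : ℝ) : ℝ :=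
  if u / 2 ≤ r1 then 2 * r / Real.sqrt (r ^ 2 - (u / 2) ^ 2) else 0

private theorem TAh_meas (r r1 : ℝ) : Measurable (TAh r r1) := by
  unfold TAh
  refine Measurable.ite (measurableSet_le (by fun_prop) measurable_const) ?_ measurable_const
  fun_prop

private theorem TAh_bound {r r1 : ℝ} (h0 : 0 < r1) (h1 : r1 < r) {u : ℝ} (hu : 0 ≤ u) :
    ‖TAh r r1 u‖ ≤ 2 * r / Real.sqrt (r ^ 2 - r1 ^ 2) := by
  have hp : 0 < r ^ 2 - r1 ^ 2 := by nlinarith
  have hp2 := Real.sqrt_pos.2 hp
  unfold TAh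
  split_ifs with h
  · have e1 : r ^ 2 - r1 ^ 2 ≤ r ^ 2 - (u / 2) ^ 2 := by nlinarith
    have e2 := Real.sqrt_le_sqrt e1
    rw [Real.norm_of_nonneg (div_nonneg (by linarith) (Real.sqrt_nonneg _))]
    exact div_le_div_of_nonneg_left (by linarith) hp2 e2
  · rw [norm_zero]
    exact div_nonneg (by linarith) hp2.le

private theorem TAh_int {r r1 : ℝ} (h0 : 0 < r1) (h1 : r1 < r) (h2 : r < 1 / 2) :
    ∫ u in Ico (0 : ℝ) 1, TAh r r1 u = 4 * r * Real.arcsin (r1 / r) := by
  have hr : 0 < r := h0.trans h1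
  -- restrict to `[0, 2 r1]`
  have e1 : ∫ u in Ico (0 : ℝ) 1, TAh r r1 u =
      ∫ u in Icc (0 : ℝ) (2 * r1), 2 * r / Real.sqrt (r ^ 2 - (u / 2) ^ 2) := by
    have e2 : ∀ u, TAh r r1 u = (Iic (2 * r1)).indicator
        (fun u => 2 * r / Real.sqrt (r ^ 2 - (u / 2) ^ 2)) u := by
      intro u
      unfold TAh
      by_cases h : u / 2 ≤ r1
      · rw [if_pos h, indicator_of_mem (show u ∈ Iic (2 * r1) from by
          show u ≤ 2 * r1; linarith)]
      · rw [if_neg h, indicator_of_notMem (show u ∉ Iic (2 * r1) from by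
          intro h'
          have : u ≤ 2 * r1 := h'
          exact h (by linarith))]
    simp only [e2]
    rw [setIntegral_indicator measurableSet_Iic]
    congr 2
    ext u
    constructor
    · rintro ⟨⟨a, b⟩, c⟩
      exact ⟨a, c⟩
    · rintro ⟨a, b⟩
      exact ⟨⟨a, by linarith⟩, b⟩
  have hlt : ∀ u ∈ Icc (0 : ℝ) (2 * r1), 0 < r ^ 2 - (u / 2) ^ 2 := by
    intro u hu
    nlinarith [hu.1, hu.2]
  rw [e1, integral_Icc_eq_integral_Ioc, ← intervalIntegral.integral_of_le (by linarith)]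
  have hder : ∀ u ∈ uIcc (0 : ℝ) (2 * r1), HasDerivAt (fun u => 4 * r * Real.arcsin (u / (2 * r)))
      (2 * r / Real.sqrt (r ^ 2 - (u / 2) ^ 2)) u := by
    intro u hu
    rw [uIcc_of_le (by linarith)] at hu
    have hp := hlt u hu
    have hx1 : u / (2 * r) < 1 := by
      rw [div_lt_one (by linarith)]
      linarith [hu.2]
    have hx0 : 0 ≤ u / (2 * r) := div_nonneg hu.1 (by linarith)
    have e3 : HasDerivAt (fun u : ℝ => u / (2 * r)) (1 / (2 * r)) u :=
      (hasDerivAt_id u).div_const (2 * r)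
    have e4 := (Real.hasDerivAt_arcsin (x := u / (2 * r)) (by linarith) (by linarith)).comp u e3
    have e5 := e4.const_mul (4 * r)
    have e6 : r ^ 2 - (u / 2) ^ 2 = r ^ 2 * (1 - (u / (2 * r)) ^ 2) := by
      field_simp
    have e7 : 0 < 1 - (u / (2 * r)) ^ 2 := by nlinarith
    have e8 : Real.sqrt (r ^ 2 - (u / 2) ^ 2) = r * Real.sqrt (1 - (u / (2 * r)) ^ 2) := by
      rw [e6, Real.sqrt_mul (by positivity), Real.sqrt_sq hr.le]
    rw [e8]
    have e9 : 2 * r / (r * Real.sqrt (1 - (u / (2 * r)) ^ 2)) =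
        4 * r * (1 / Real.sqrt (1 - (u / (2 * r)) ^ 2) * (1 / (2 * r))) := by
      have := (Real.sqrt_pos.2 e7).ne'
      field_simp
      ring
    rw [e9]
    exact e5
  rw [intervalIntegral.integral_eq_sub_of_hasDerivAt hder]
  · have e10 : 2 * r1 / (2 * r) = r1 / r := by field_simp
    simp only [e10]
    simp
  · refine ContinuousOn.intervalIntegrable ?_
    rw [uIcc_of_le (by linarith)]
    refine ContinuousOn.div continuousOn_const (Continuous.continuousOn (by fun_prop)) ?_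
    intro u hu
    exact (Real.sqrt_pos.2 (hlt u hu)).ne'

/-- `∫` over the strip `|s| ≤ r₁` in the cell of `2r/√(r²-s²)` is `4 r arcsin (r₁/r)`. -/
theorem LT_int (i : Fin 2) (r r1 : ℝ) (h0 : 0 < r1) (h1 : r1 < r) (h2 : r < 1 / 2) :
    ∫ y in {y : E2 | |y i - round (y i)| ≤ r1} ∩ unitCell 2,
      2 * r / Real.sqrt (r ^ 2 - (y i - round (y i)) ^ 2) = 4 * r * Real.arcsin (r1 / r) := by
  have hcf : Continuous (fun y : E2 => fold (y i)) := fold_continuous.comp (by fun_prop)
  have hS : MeasurableSet {y : E2 | |y i - round (y i)| ≤ r1} := by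
    simp only [TA_abs]
    exact measurableSet_le (hcf.measurable.div_const 2) measurable_const
  have e1 : ∀ y : E2, ({y : E2 | |y i - round (y i)| ≤ r1}).indicator
      (fun y => 2 * r / Real.sqrt (r ^ 2 - (y i - round (y i)) ^ 2)) y = TAh r r1 (fold (y i)) := by
    intro y
    unfold TAh
    rw [TA_sq]
    by_cases h : |y i - round (y i)| ≤ r1
    · rw [indicator_of_mem (show y ∈ {y : E2 | |y i - round (y i)| ≤ r1} from h),
        if_pos (by rw [← TA_abs]; exact h)]
    · rw [indicator_of_notMem (show y ∉ {y : E2 | |y i - round (y i)| ≤ r1} from h),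
        if_neg (by rw [← TA_abs]; exact h)]
  rw [inter_comm, ← setIntegral_indicator hS]
  simp only [e1]
  have hmeas : Measurable (fun y : E2 => TAh r r1 (fold (y i))) :=
    (TAh_meas r r1).comp hcf.measurable
  have hint : IntegrableOn (fun y : E2 => TAh r r1 (fold (y i))) (unitCell 2) := by
    refine Measure.integrableOn_of_bounded (M := 2 * r / Real.sqrt (r ^ 2 - r1 ^ 2)) ?_
      hmeas.aestronglyMeasurable ?_
    · rw [volume_unitCell]
      exact ENNReal.one_ne_top
    · exact Eventually.of_forall fun y => TAh_bound h0 h1 (fold_nonneg _)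
  rw [integral_cell_succ (n := 1) _ hint i]
  simp only [ins_apply_self]
  have e2 : ∀ t : ℝ, ∫ _ in unitCell 1, TAh r r1 (fold t) = TAh r r1 (fold t) := by
    intro t
    rw [setIntegral_const]
    have : (volume.real (unitCell 1)) = 1 := by
      rw [Measure.real, volume_unitCell]
      simp
    rw [this, one_smul]
  simp only [e2]
  rw [intervalIntegral.integral_of_le zero_le_one, ← integral_Ico_eq_integral_Ioc,
    ← TAh_int h0 h1 h2]
  conv_rhs => rw [← fold_map]
  rw [integral_map fold_continuous.measurable.aemeasurable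
    (TAh_meas r r1).aestronglyMeasurable]

end
end Crest.Agent.T3
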